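import Vale.Agent.P088.R2.H404.Spec4
import Vale.Agent.P088.R2.H475.INF.Gam2

/-!
# P088, zone INF: the global level function in the unit chart

`gg n σ y = σ⁻¹ Ga σ (|w|²)`, `w = wv n σ y = e₀ + σ (y - e₀) = σ (y - y_c)`. It is `gy n σ y` where
`|w|² ≥ th1 σ`, in particular for `|y| ≤ 5 / 4`.
-/

open Set Filter MeasureTheory
open scoped ContDiff Topology Matrix

noncomputable section

namespace Vale.Agent.P088.R2.H475

open Vale.Agent.P088.LR Vale.Agent.P088.HY Vale.Agent.P088.HY.T3 Vale.Agent.P088.HY.T4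

variable {n : ℕ} {σ : ℝ}

/-- `σ (y - y_c)`. -/
def wv (n : ℕ) (σ : ℝ) (y : V n) : V n := fun i => e0 n i + σ * (y i - e0 n i)

/-- The global level. -/
def gg (n : ℕ) (σ : ℝ) (y : V n) : ℝ := σ⁻¹ * Ga σ (HY.sq (wv n σ y))

/-! ### Euclidean length -/

lemma sq0 (x : V n) : 0 ≤ HY.sq x := Finset.sum_nonneg fun _ _ => sq_nonneg _

lemma en_eq (x : V n) : √(HY.sq x) = ‖(WithLp.toLp 2 x : EuclideanSpace ℝ (Fin n))‖ := by
  rw [EuclideanSpace.norm_eq]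
  unfold HY.sq
  simp [sq_abs]

lemma en_add (x y : V n) : √(HY.sq (x + y)) ≤ √(HY.sq x) + √(HY.sq y) := by
  rw [en_eq, en_eq, en_eq, WithLp.toLp_add]
  exact norm_add_le _ _

lemma en_sub (x y : V n) : √(HY.sq (x - y)) ≤ √(HY.sq x) + √(HY.sq y) := by
  rw [en_eq, en_eq, en_eq, WithLp.toLp_sub]
  exact norm_sub_le _ _

lemma en_smul (c : ℝ) (x : V n) : √(HY.sq (c • x)) = |c| * √(HY.sq x) := by
  rw [en_eq, en_eq, WithLp.toLp_smul, norm_smul, Real.norm_eq_abs]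

lemma sq_e0' (hn : 1 ≤ n) : HY.sq (e0 n) = 1 := by
  unfold HY.sq e0
  rw [Finset.sum_eq_single (⟨0, by omega⟩ : Fin n)]
  · simp
  · intro b _ hb
    have : b.val ≠ 0 := fun h => hb (Fin.ext h)
    simp [this]
  · simp

lemma wv_eq (σ : ℝ) (y : V n) : wv n σ y = e0 n + σ • (y - e0 n) := rfl

lemma wv_sub (σ : ℝ) (x y : V n) : wv n σ x - wv n σ y = σ • (x - y) := by
  ext i
  simp only [wv, Pi.sub_apply, Pi.smul_apply, smul_eq_mul]
  ring

/-- The length of `w` is Lipschitz with constant `σ`. -/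
lemma en_wv_le (h0 : 0 < σ) (x y : V n) :
    √(HY.sq (wv n σ x)) ≤ √(HY.sq (wv n σ y)) + σ * √(HY.sq (x - y)) := by
  have h : wv n σ x = wv n σ y + σ • (x - y) := by
    rw [← wv_sub]; abel
  rw [h]
  refine (en_add _ _).trans ?_
  rw [en_smul, abs_of_pos h0]

/-- `σ |x - y| ≤ |w(x)| + |w(y)|`. -/
lemma en_sub_le (h0 : 0 < σ) (x y : V n) :
    σ * √(HY.sq (x - y)) ≤ √(HY.sq (wv n σ x)) + √(HY.sq (wv n σ y)) := by
  have h := en_sub (wv n σ x) (wv n σ y)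
  rwa [wv_sub, en_smul, abs_of_pos h0] at h

theorem gy_wv (hn : 1 ≤ n) (h0 : σ ≠ 0) (y : V n) :
    gy n σ y = (HY.sq (wv n σ y) - 1) / (2 * σ) := by
  have h1 : HY.sq (wv n σ y) = HY.sq (e0 n) + 2 * σ * (∑ i, y i * e0 n i) -
      2 * σ * HY.sq (e0 n) + σ ^ 2 * HY.sq (y - e0 n) := by
    unfold HY.sq wv
    simp only [Pi.sub_apply, Finset.mul_sum]
    rw [← Finset.sum_add_distrib, ← Finset.sum_sub_distrib, ← Finset.sum_add_distrib]
    refine Finset.sum_congr rfl fun i _ => ?_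
    ring
  rw [h1, sq_e0' hn]
  unfold gy
  field_simp
  ring

/-- **The global level is the official one outside a ball about `y_c`.** -/
theorem gg_eq_gy (hn : 1 ≤ n) (h0 : 0 < σ) (h1 : σ ≤ 1 / 5000) {y : V n}
    (h : th1 σ ≤ HY.sq (wv n σ y)) : gg n σ y = gy n σ y := by
  unfold gg
  rw [gy_wv hn h0.ne', Ga_lit h0 h1 h]
  field_simp

/-- `|w| ≥ 1 - 9/4 σ` for `|y| ≤ 5/4`. -/
theorem en_wv_near (hn : 1 ≤ n) (h0 : 0 < σ) {y : V n} {a : ℝ} (h : √(HY.sq y) ≤ a) :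
    1 - (a + 1) * σ ≤ √(HY.sq (wv n σ y)) := by
  have h2 := en_wv_le (n := n) h0 (e0 n) y
  have h3 : wv n σ (e0 n) = e0 n := by
    ext i; simp [wv]
  rw [h3, sq_e0' hn, Real.sqrt_one] at h2
  have h4 := en_sub (e0 n) y
  rw [sq_e0' hn, Real.sqrt_one] at h4
  nlinarith

theorem th1_le_of_near (hn : 1 ≤ n) (h0 : 0 < σ) (h1 : σ ≤ 1 / 5000) {y : V n}
    (h : √(HY.sq y) ≤ 13 / 10) : th1 σ ≤ HY.sq (wv n σ y) := by
  have h2 := en_wv_near hn h0 h
  have h3 := Real.sq_sqrt (sq0 (wv n σ y))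
  rw [← h3]
  unfold th1
  have h4 : 0 ≤ 1 - 23 / 10 * σ := by linarith
  have h5 : 1 - 23 / 10 * σ ≤ √(HY.sq (wv n σ y)) := by linarith
  exact pow_le_pow_left₀ h4 h5 2

theorem gg_near (hn : 1 ≤ n) (h0 : 0 < σ) (h1 : σ ≤ 1 / 5000) {y : V n}
    (h : √(HY.sq y) ≤ 13 / 10) : gg n σ y = gy n σ y :=
  gg_eq_gy hn h0 h1 (th1_le_of_near hn h0 h1 h)

/-! ### Derivatives -/

lemma contDiff_wv (σ : ℝ) : ContDiff ℝ ∞ (wv n σ) := by
  unfold wv
  fun_prop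

lemma contDiff_sq : ContDiff ℝ ∞ (HY.sq : V n → ℝ) := by
  unfold HY.sq
  fun_prop

lemma contDiff_sqw (σ : ℝ) : ContDiff ℝ ∞ fun y : V n => HY.sq (wv n σ y) :=
  contDiff_sq.comp (contDiff_wv σ)

theorem gg_smooth (h0 : 0 < σ) (h1 : σ ≤ 1 / 5000) : ContDiff ℝ ∞ (gg n σ) := by
  rw [contDiff_iff_contDiffAt]
  intro y
  have h2 := sq0 (wv n σ y)
  have h3 : ContDiffAt ℝ ∞ (Ga σ) (HY.sq (wv n σ y)) := contDiffAt_Ga h0 h1 (by linarith)
  have h4 : ContDiffAt ℝ ∞ (fun y : V n => Ga σ (HY.sq (wv n σ y))) y :=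
    ContDiffAt.comp (g := Ga σ) (f := fun y : V n => HY.sq (wv n σ y)) y h3
      (contDiff_sqw σ).contDiffAt
  exact contDiffAt_const.mul h4

/-- The derivative of `|w|²`. -/
lemma fd_sqw (σ : ℝ) (y : V n) : HasFDerivAt (fun y : V n => HY.sq (wv n σ y))
    (∑ i, (2 * σ * wv n σ y i) • (ContinuousLinearMap.proj i : V n →L[ℝ] ℝ)) y := by
  have h1 : ∀ i, HasFDerivAt (fun y : V n => (wv n σ y i) ^ 2)
      ((2 * σ * wv n σ y i) • (ContinuousLinearMap.proj i : V n →L[ℝ] ℝ)) y := by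
    intro i
    have h2 : HasDerivAt (fun t : ℝ => (e0 n i + σ * (t - e0 n i)) ^ 2)
        (2 * σ * wv n σ y i) (y i) := by
      have h3 := ((((hasDerivAt_id (y i)).sub_const (e0 n i)).const_mul σ).const_add
        (e0 n i)).pow 2
      refine h3.congr_deriv ?_
      simp only [id_eq, wv]
      ring
    have h4 : HasFDerivAt (fun y : V n => y i) (ContinuousLinearMap.proj i : V n →L[ℝ] ℝ) y :=
      (ContinuousLinearMap.proj i : V n →L[ℝ] ℝ).hasFDerivAt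
    exact h2.comp_hasFDerivAt y h4
  exact HasFDerivAt.fun_sum fun i _ => h1 i

lemma fd_wv (σ : ℝ) (i : Fin n) (y : V n) : HasFDerivAt (fun y : V n => wv n σ y i)
    (σ • (ContinuousLinearMap.proj i : V n →L[ℝ] ℝ)) y := by
  have h4 : HasFDerivAt (fun y : V n => y i) (ContinuousLinearMap.proj i : V n →L[ℝ] ℝ) y :=
    (ContinuousLinearMap.proj i : V n →L[ℝ] ℝ).hasFDerivAt
  exact ((h4.sub_const _).const_mul σ).const_add _

lemma sum_proj (c : Fin n → ℝ) (j : Fin n) :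
    (∑ i, (c i) • (ContinuousLinearMap.proj i : V n →L[ℝ] ℝ)) (Pi.single j 1) = c j := by
  simp only [sum_apply, smul_apply,
    ContinuousLinearMap.proj_apply, smul_eq_mul]
  rw [Finset.sum_eq_single j]
  · rw [Pi.single_eq_same, mul_one]
  · intro k _ hk
    rw [Pi.single_eq_of_ne hk, mul_zero]
  · intro h; exact absurd (Finset.mem_univ _) h

lemma proj_single (i j : Fin n) :
    (ContinuousLinearMap.proj i : V n →L[ℝ] ℝ) (Pi.single j 1) = if i = j then 1 else 0 := by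
  rw [ContinuousLinearMap.proj_apply, Pi.single_apply]

lemma theta_ok (y : V n) : 0 < 10000 * HY.sq (wv n σ y) + 1 := by
  have := sq0 (wv n σ y)
  linarith

theorem fd_gg (h0 : 0 < σ) (h1 : σ ≤ 1 / 5000) (y : V n) : HasFDerivAt (gg n σ)
    (∑ i, (pp σ (HY.sq (wv n σ y)) * wv n σ y i) •
      (ContinuousLinearMap.proj i : V n →L[ℝ] ℝ)) y := by
  have h2 := ((hasDerivAt_Ga h0 h1 (theta_ok y)).comp_hasFDerivAt y (fd_sqw σ y)).const_mul σ⁻¹
  refine h2.congr_fderiv ?_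
  rw [smul_smul, Finset.smul_sum]
  refine Finset.sum_congr rfl fun i _ => ?_
  rw [smul_smul]
  congr 1
  field_simp

/-- **The gradient of the level.** -/
theorem pd_gg (h0 : 0 < σ) (h1 : σ ≤ 1 / 5000) (i : Fin n) (y : V n) :
    pd i (gg n σ) y = pp σ (HY.sq (wv n σ y)) * wv n σ y i := by
  unfold pd
  rw [(fd_gg h0 h1 y).fderiv, sum_proj]

/-- **The second derivatives of the level.** -/
theorem pd2_gg (h0 : 0 < σ) (h1 : σ ≤ 1 / 5000) (i j : Fin n) (y : V n) :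
    pd j (pd i (gg n σ)) y = σ * (pp σ (HY.sq (wv n σ y)) * (if i = j then 1 else 0) +
      2 * pp' σ (HY.sq (wv n σ y)) * (wv n σ y i * wv n σ y j)) := by
  have h2 : pd i (gg n σ) = fun y => pp σ (HY.sq (wv n σ y)) * wv n σ y i :=
    funext fun y => pd_gg h0 h1 i y
  rw [h2]
  have h3 := ((hasDerivAt_pp (σ := σ) (theta_ok y)).comp_hasFDerivAt y (fd_sqw σ y)).mul
    (fd_wv σ i y)
  unfold pd
  have h4 := h3.fderiv
  simp only [Function.comp_apply] at h4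
  have e : (fun y : V n => pp σ (HY.sq (wv n σ y)) * wv n σ y i) =
      ((pp σ ∘ fun y : V n => HY.sq (wv n σ y)) * fun y : V n => wv n σ y i) := rfl
  rw [e, h4]
  simp only [add_apply, smul_apply, smul_eq_mul]
  rw [sum_proj, proj_single]
  ring

/-- **Convexity of the level.** -/
theorem hess_gg (h0 : 0 < σ) (h1 : σ ≤ 1 / 5000) (y U : V n) :
    3 / 100 * σ * HY.sq U ≤ ∑ i, ∑ j, U i * U j * pd j (pd i (gg n σ)) y ∧
    ∑ i, ∑ j, U i * U j * pd j (pd i (gg n σ)) y ≤ 410 * σ * HY.sq U := by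
  set θ := HY.sq (wv n σ y) with hθ
  set s := ∑ i, wv n σ y i * U i with hs
  have hθ0 : 0 ≤ θ := sq0 _
  have e : ∑ i, ∑ j, U i * U j * pd j (pd i (gg n σ)) y =
      σ * (pp σ θ * HY.sq U + 2 * pp' σ θ * s ^ 2) := by
    have e1 : ∀ i j, U i * U j * pd j (pd i (gg n σ)) y =
        σ * pp σ θ * (if i = j then U i * U j else 0) +
        2 * σ * pp' σ θ * ((wv n σ y i * U i) * (wv n σ y j * U j)) := by
      intro i j
      rw [pd2_gg h0 h1]
      split_ifs <;> ring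
    simp only [e1, Finset.sum_add_distrib]
    have e2 : ∑ i, ∑ j, σ * pp σ θ * (if i = j then U i * U j else 0) =
        σ * pp σ θ * HY.sq U := by
      unfold HY.sq
      rw [Finset.mul_sum]
      refine Finset.sum_congr rfl fun i _ => ?_
      rw [Finset.sum_eq_single i]
      · simp; left; ring
      · intro j _ hj
        rw [if_neg (Ne.symm hj), mul_zero]
      · intro h; exact absurd (Finset.mem_univ _) h
    have e3 : ∑ i, ∑ j, 2 * σ * pp' σ θ * ((wv n σ y i * U i) * (wv n σ y j * U j)) =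
        2 * σ * pp' σ θ * s ^ 2 := by
      rw [hs, pow_two, Finset.sum_mul_sum, Finset.mul_sum]
      refine Finset.sum_congr rfl fun i _ => ?_
      rw [Finset.mul_sum]
    rw [e2, e3]
    ring
  rw [e]
  have hcs : s ^ 2 ≤ θ * HY.sq U := by
    rw [hs, hθ]
    exact Finset.sum_mul_sq_le_sq_mul_sq _ _ _
  have hU : 0 ≤ HY.sq U := sq0 U
  have hg := pp'_ge h0 h1 hθ0
  have hl := pp'_le h0 h1 hθ0
  have hp := pp_pos h0 h1 hθ0
  have hpl := pp_le h0 h1 hθ0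
  have hs2 := sq_nonneg s
  constructor
  · have h2 : 3 / 100 * HY.sq U ≤ pp σ θ * HY.sq U + 2 * pp' σ θ * s ^ 2 := by
      rcases le_total 0 (pp' σ θ) with h | h
      · nlinarith [mul_nonneg h hs2]
      · have h3 : pp' σ θ * (θ * HY.sq U) ≤ pp' σ θ * s ^ 2 := mul_le_mul_of_nonpos_left hcs h
        nlinarith [mul_le_mul_of_nonneg_right hg hU]
    nlinarith
  · have h2 : pp σ θ * HY.sq U + 2 * pp' σ θ * s ^ 2 ≤ 410 * HY.sq U := by
      rcases le_total 0 (pp' σ θ) with h | h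
      · have h3 : pp' σ θ * s ^ 2 ≤ pp' σ θ * (θ * HY.sq U) := mul_le_mul_of_nonneg_left hcs h
        nlinarith [mul_le_mul_of_nonneg_right hl hU]
      · nlinarith [mul_nonneg (neg_nonneg.2 h) hs2]
    nlinarith

/-! ### Size of the gradient -/

/-- The square of the gradient of the level. -/
theorem sq_grad_gg (h0 : 0 < σ) (h1 : σ ≤ 1 / 5000) (y : V n) :
    ∑ i, pd i (gg n σ) y ^ 2 =
      (√(HY.sq (wv n σ y)) * pp σ (√(HY.sq (wv n σ y)) ^ 2)) ^ 2 := by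
  rw [Real.sq_sqrt (sq0 _), mul_pow, Real.sq_sqrt (sq0 _)]
  have h2 : ∀ i, pd i (gg n σ) y ^ 2 =
      wv n σ y i ^ 2 * pp σ (HY.sq (wv n σ y)) ^ 2 := by
    intro i
    rw [pd_gg h0 h1]
    ring
  simp only [h2]
  rw [← Finset.sum_mul]
  rfl

theorem grad_gg_ge (h0 : 0 < σ) (h1 : σ ≤ 1 / 5000) {y : V n}
    (h : 2 / 25 ≤ √(HY.sq (wv n σ y))) : (24 / 25) ^ 2 ≤ ∑ i, pd i (gg n σ) y ^ 2 := by
  rw [sq_grad_gg h0 h1]
  exact pow_le_pow_left₀ (by norm_num) (t_pp_ge h0 h1 h) 2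

theorem grad_gg_le (h0 : 0 < σ) (h1 : σ ≤ 1 / 5000) (y : V n) :
    ∑ i, pd i (gg n σ) y ^ 2 ≤ max 1 (HY.sq (wv n σ y)) := by
  rw [sq_grad_gg h0 h1]
  have ht := Real.sqrt_nonneg (HY.sq (wv n σ y))
  have h2 := t_pp_le h0 h1 ht
  have h3 : 0 ≤ √(HY.sq (wv n σ y)) * pp σ (√(HY.sq (wv n σ y)) ^ 2) :=
    mul_nonneg ht (by linarith [pp_pos h0 h1 (sq_nonneg (√(HY.sq (wv n σ y))))])
  refine (pow_le_pow_left₀ h3 h2 2).trans ?_
  rcases le_total 1 (√(HY.sq (wv n σ y))) with h4 | h4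
  · rw [max_eq_right h4, Real.sq_sqrt (sq0 _)]
    exact le_max_right _ _
  · rw [max_eq_left h4, one_pow]
    exact le_max_left _ _

/-! ### Values -/

theorem gg_bot (h0 : 0 < σ) (h1 : σ ≤ 1 / 5000) (y : V n) : -(49 / 50) * σ⁻¹ ≤ gg n σ y := by
  unfold gg
  have := Ga_bot h0 h1 (sq0 (wv n σ y))
  have h2 : 0 < σ⁻¹ := inv_pos.2 h0
  nlinarith

theorem gg_deep (h0 : 0 < σ) (h1 : σ ≤ 1 / 5000) {y : V n}
    (h : √(HY.sq (wv n σ y)) ≤ 2 / 25) : gg n σ y ≤ -(9 / 10) * σ⁻¹ := by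
  have h3 : HY.sq (wv n σ y) ≤ 4 / 625 := by
    rw [← Real.sq_sqrt (sq0 (wv n σ y))]
    have := pow_le_pow_left₀ (Real.sqrt_nonneg _) h 2
    norm_num at this ⊢
    exact this
  unfold gg
  have := Ga_deep h0 h1 h3
  have h2 : 0 < σ⁻¹ := inv_pos.2 h0
  nlinarith

/-- The level is a strictly increasing function of `|w|²`. -/
theorem gg_lt_iff (h0 : 0 < σ) (h1 : σ ≤ 1 / 5000) (x y : V n) :
    gg n σ x < gg n σ y ↔ HY.sq (wv n σ x) < HY.sq (wv n σ y) := by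
  unfold gg
  rw [mul_lt_mul_iff_right₀ (inv_pos.2 h0)]
  exact (Ga_mono h0 h1).lt_iff_lt (mem_Ici.2 (sq0 _)) (mem_Ici.2 (sq0 _))

theorem gg_le_iff (h0 : 0 < σ) (h1 : σ ≤ 1 / 5000) (x y : V n) :
    gg n σ x ≤ gg n σ y ↔ HY.sq (wv n σ x) ≤ HY.sq (wv n σ y) := by
  rw [← not_lt, ← not_lt, gg_lt_iff h0 h1]

/-- Where the level is at least `-229/100` it is `(|w|² - 1) / (2σ)`. -/
theorem th1_le_of_gg (h0 : 0 < σ) (h1 : σ ≤ 1 / 5000) {y : V n}
    (h : -(229 / 100) ≤ gg n σ y) : th1 σ ≤ HY.sq (wv n σ y) := by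
  by_contra hc
  have hc' : HY.sq (wv n σ y) < th1 σ := not_le.1 hc
  have h2 : Ga σ (HY.sq (wv n σ y)) < Ga σ (th1 σ) :=
    Ga_mono h0 h1 (mem_Ici.2 (sq0 _)) (mem_Ici.2 (by linarith [th0_gt h0 h1, th0_lt h0 h1])) hc'
  rw [Ga_lit h0 h1 le_rfl] at h2
  have h3 : (th1 σ - 1) / 2 = σ * (-(23 / 10) + 529 / 200 * σ) := by unfold th1; ring
  rw [h3] at h2
  have h4 : gg n σ y < -(23 / 10) + 529 / 200 * σ := by
    unfold gg
    rw [inv_mul_lt_iff₀ h0]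
    exact h2
  linarith

theorem gg_lit (h0 : 0 < σ) (h1 : σ ≤ 1 / 5000) {y : V n}
    (h : th1 σ ≤ HY.sq (wv n σ y)) : gg n σ y = (HY.sq (wv n σ y) - 1) / (2 * σ) := by
  unfold gg
  rw [Ga_lit h0 h1 h]
  field_simp

/-- A level above `21/20` is reached only for `|y| > 2`. -/
theorem en_gt_of_gg (hn : 1 ≤ n) (h0 : 0 < σ) (h1 : σ ≤ 1 / 5000) {y : V n}
    (h : 21 / 20 ≤ gg n σ y) : 2 < √(HY.sq y) := by
  by_contra hc
  have hc' : √(HY.sq y) ≤ 2 := not_lt.1 hc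
  have h2 := en_wv_le (n := n) h0 y (e0 n)
  have h3 : wv n σ (e0 n) = e0 n := by
    ext i; simp [wv]
  -- `gy` directly
  have h4 := th1_le_of_gg h0 h1 (by linarith : -(229 / 100) ≤ gg n σ y)
  have h5 := gg_eq_gy hn h0 h1 h4
  rw [h5] at h
  have h6 : HY.sq (y - e0 n) ≤ 9 := by
    have h7 := en_sub y (e0 n)
    rw [sq_e0' hn, Real.sqrt_one] at h7
    have h8 := Real.sq_sqrt (sq0 (y - e0 n))
    have h9 := Real.sqrt_nonneg (HY.sq (y - e0 n))
    nlinarith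
  have h10 : ∑ i, y i * e0 n i ≤ 2 := by
    have h11 : (∑ i, y i * e0 n i) ^ 2 ≤ HY.sq y * HY.sq (e0 n) :=
      Finset.sum_mul_sq_le_sq_mul_sq _ _ _
    rw [sq_e0' hn, mul_one] at h11
    have h12 := Real.sq_sqrt (sq0 y)
    have h13 : HY.sq y ≤ 4 := by
      have := Real.sqrt_nonneg (HY.sq y)
      nlinarith
    nlinarith
  unfold gy at h
  nlinarith

end Vale.Agent.P088.R2.H475
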