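import Vale.Agent.P088.R2.H31.EP.Wgt
import Vale.Agent.P088.R2.H475.INF.Lev

/-!
# P088, zone INF: the global level in rate units

`levG n σ R kap Gs x = log (kap / R) + R (gg n σ (x / R) - Gs)`, equal to `lv n σ R kap Gs x` for
`|x| ≤ 13 R / 10` and wherever `gg ≥ -229 / 100`.
-/

open Set Filter MeasureTheory
open scoped ContDiff Topology Matrix

noncomputable section

namespace Vale.Agent.P088.R2.H475

open Vale.Agent.P088.LR Vale.Agent.P088.HY Vale.Agent.P088.HY.T3 Vale.Agent.P088.HY.T4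
open Vale.Agent.P088.R2.H31.EP

variable {n : ℕ} {σ R kap Gs : ℝ}

/-- **The global level in rate units.** -/
def levG (n : ℕ) (σ R kap Gs : ℝ) (x : V n) : ℝ :=
  Real.log (kap / R) + R * (gg n σ (R⁻¹ • x) - Gs)

/-- `w` in rate units: `w = e₀ + σ (x / R - e₀)`. -/
def wR (n : ℕ) (σ R : ℝ) (x : V n) : V n := wv n σ (R⁻¹ • x)

/-- The level of the sphere `gg = 0`. -/
def lam0 (R kap Gs : ℝ) : ℝ := Real.log (kap / R) - R * Gs

lemma levG_eq (x : V n) : levG n σ R kap Gs x = lam0 R kap Gs + R * gg n σ (R⁻¹ • x) := by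
  unfold levG lam0; ring

/-! ### The official level -/

theorem levG_eq_lv (hn : 1 ≤ n) (h0 : 0 < σ) (h1 : σ ≤ 1 / 5000) {x : V n}
    (h : th1 σ ≤ HY.sq (wR n σ R x)) : levG n σ R kap Gs x = lv n σ R kap Gs x := by
  unfold levG lv
  rw [gg_eq_gy hn h0 h1 h]

theorem levG_near (hn : 1 ≤ n) (h0 : 0 < σ) (h1 : σ ≤ 1 / 5000) (hR : 0 < R) {x : V n}
    (h : √(HY.sq x) ≤ 13 / 10 * R) : levG n σ R kap Gs x = lv n σ R kap Gs x := by
  refine levG_eq_lv hn h0 h1 (th1_le_of_near hn h0 h1 ?_)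
  rw [en_smul, abs_of_pos (inv_pos.2 hR), inv_mul_le_iff₀ hR]
  linarith

theorem levG_high (hn : 1 ≤ n) (h0 : 0 < σ) (h1 : σ ≤ 1 / 5000) (hR : 0 < R) {x : V n}
    (h : lam0 R kap Gs - 229 / 100 * R ≤ levG n σ R kap Gs x) :
    levG n σ R kap Gs x = lv n σ R kap Gs x := by
  refine levG_eq_lv hn h0 h1 (th1_le_of_gg h0 h1 ?_)
  rw [levG_eq] at h
  by_contra hc
  have := mul_lt_mul_of_pos_left (not_le.1 hc) hR
  linarith

/-! ### Derivatives -/

theorem levG_smooth (h0 : 0 < σ) (h1 : σ ≤ 1 / 5000) : ContDiff ℝ ∞ (levG n σ R kap Gs) :=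
  contDiff_const.add (contDiff_const.mul (((gg_smooth h0 h1).comp
    (contDiff_const_smul R⁻¹)).sub contDiff_const))

lemma pd_scale {f : V n → ℝ} (hf : Differentiable ℝ f) (c : ℝ) (i : Fin n) (x : V n) :
    pd i (fun x => f (c • x)) x = c * pd i f (c • x) := by
  unfold pd
  have h1 : HasFDerivAt (fun x : V n => c • x) (c • ContinuousLinearMap.id ℝ (V n)) x :=
    (hasFDerivAt_id x).const_smul c
  have h2 := (hf (c • x)).hasFDerivAt.comp x h1
  have h3 : (f ∘ fun x : V n => c • x) = fun x => f (c • x) := rfl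
  rw [h3] at h2
  rw [h2.fderiv]
  simp

theorem pd_levG' (h0 : 0 < σ) (h1 : σ ≤ 1 / 5000) (hR : 0 < R) (i : Fin n) (x : V n) :
    pd i (levG n σ R kap Gs) x = pd i (gg n σ) (R⁻¹ • x) := by
  have hd : Differentiable ℝ (gg n σ) := (gg_smooth h0 h1).differentiable (by simp)
  have h2 := pd_scale hd R⁻¹ i x
  have h3 : DifferentiableAt ℝ (fun x : V n => gg n σ (R⁻¹ • x)) x :=
    (hd _).comp x (differentiableAt_id.const_smul R⁻¹)
  have h4 : HasFDerivAt (levG n σ R kap Gs)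
      (R • fderiv ℝ (fun x : V n => gg n σ (R⁻¹ • x)) x) x :=
    ((h3.hasFDerivAt.sub_const Gs).const_mul R).const_add _
  unfold pd at h2 ⊢
  rw [h4.fderiv, smul_apply, h2, smul_eq_mul]
  field_simp

/-- **The gradient.** -/
theorem pd_levG (h0 : 0 < σ) (h1 : σ ≤ 1 / 5000) (hR : 0 < R) (i : Fin n) (x : V n) :
    pd i (levG n σ R kap Gs) x = pp σ (HY.sq (wR n σ R x)) * wR n σ R x i := by
  rw [pd_levG' h0 h1 hR, pd_gg h0 h1]
  rfl

/-- **The second derivatives.** -/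
theorem pd2_levG (h0 : 0 < σ) (h1 : σ ≤ 1 / 5000) (hR : 0 < R) (i j : Fin n) (x : V n) :
    pd j (pd i (levG n σ R kap Gs)) x = σ / R * (pp σ (HY.sq (wR n σ R x)) *
      (if i = j then 1 else 0) + 2 * pp' σ (HY.sq (wR n σ R x)) *
        (wR n σ R x i * wR n σ R x j)) := by
  have h2 : pd i (levG n σ R kap Gs) = fun x => pd i (gg n σ) (R⁻¹ • x) :=
    funext fun x => pd_levG' h0 h1 hR i x
  have hd : Differentiable ℝ (pd i (gg n σ)) := by
    have h3 : ContDiff ℝ ∞ (pd i (gg n σ)) := by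
      unfold pd
      exact ((gg_smooth (n := n) h0 h1).fderiv_right (m := ∞) (by simp)).clm_apply contDiff_const
    exact h3.differentiable (by simp)
  rw [h2, pd_scale hd, pd2_gg h0 h1]
  unfold wR
  field_simp

/-- **Convexity.** -/
theorem hess_levG (h0 : 0 < σ) (h1 : σ ≤ 1 / 5000) (hR : 0 < R) (x U : V n) :
    3 / 100 * (σ / R) * HY.sq U ≤ ∑ i, ∑ j, U i * U j * pd j (pd i (levG n σ R kap Gs)) x ∧
    ∑ i, ∑ j, U i * U j * pd j (pd i (levG n σ R kap Gs)) x ≤ 410 * (σ / R) * HY.sq U := by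
  have h2 := hess_gg h0 h1 (R⁻¹ • x) U
  have e : ∑ i, ∑ j, U i * U j * pd j (pd i (levG n σ R kap Gs)) x =
      R⁻¹ * ∑ i, ∑ j, U i * U j * pd j (pd i (gg n σ)) (R⁻¹ • x) := by
    rw [Finset.mul_sum]
    refine Finset.sum_congr rfl fun i _ => ?_
    rw [Finset.mul_sum]
    refine Finset.sum_congr rfl fun j _ => ?_
    rw [pd2_levG h0 h1 hR, pd2_gg h0 h1]
    unfold wR
    field_simp
  rw [e]
  have hi : 0 < R⁻¹ := inv_pos.2 hR
  constructor
  · calc 3 / 100 * (σ / R) * HY.sq U = R⁻¹ * (3 / 100 * σ * HY.sq U) := by field_simp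
      _ ≤ _ := mul_le_mul_of_nonneg_left h2.1 hi.le
  · calc _ ≤ R⁻¹ * (410 * σ * HY.sq U) := mul_le_mul_of_nonneg_left h2.2 hi.le
      _ = _ := by field_simp

/-! ### Size of the gradient -/

theorem grad_levG_ge (h0 : 0 < σ) (h1 : σ ≤ 1 / 5000) (hR : 0 < R) {x : V n}
    (h : 2 / 25 ≤ √(HY.sq (wR n σ R x))) :
    (24 / 25) ^ 2 ≤ ∑ i, pd i (levG n σ R kap Gs) x ^ 2 := by
  simp only [pd_levG' h0 h1 hR]
  exact grad_gg_ge h0 h1 h

theorem grad_levG_le (h0 : 0 < σ) (h1 : σ ≤ 1 / 5000) (hR : 0 < R) (x : V n) :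
    ∑ i, pd i (levG n σ R kap Gs) x ^ 2 ≤ max 1 (HY.sq (wR n σ R x)) := by
  simp only [pd_levG' h0 h1 hR]
  exact grad_gg_le h0 h1 _

/-- `|grad| ≤ 1001/1000` below the level `lam0 + 4 R`. -/
theorem grad_levG_le' (h0 : 0 < σ) (h1 : σ ≤ 1 / 5000) (hR : 0 < R) {x : V n}
    (h : levG n σ R kap Gs x ≤ lam0 R kap Gs + 5 * R) :
    ∑ i, pd i (levG n σ R kap Gs) x ^ 2 ≤ 1 + 10 * σ := by
  refine (grad_levG_le h0 h1 hR x).trans (max_le (by linarith) ?_)
  by_contra hc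
  have hc' : 1 + 10 * σ < HY.sq (wR n σ R x) := not_le.1 hc
  have h2 : th1 σ ≤ HY.sq (wv n σ (R⁻¹ • x)) := by
    have := th1_lt h0 h1
    unfold wR at hc'
    linarith
  have h3 := gg_lit h0 h1 h2
  rw [levG_eq, h3] at h
  have h4 : (HY.sq (wv n σ (R⁻¹ • x)) - 1) / (2 * σ) ≤ 5 := by
    by_contra h5
    have := mul_lt_mul_of_pos_left (not_le.1 h5) hR
    linarith
  rw [div_le_iff₀ (by linarith)] at h4
  unfold wR at hc'
  linarith

/-! ### Values -/

theorem levG_bot (h0 : 0 < σ) (h1 : σ ≤ 1 / 5000) (hR : 0 < R) (x : V n) :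
    lam0 R kap Gs - 49 / 50 * (R / σ) ≤ levG n σ R kap Gs x := by
  rw [levG_eq]
  have h2 := mul_le_mul_of_nonneg_left (gg_bot h0 h1 (R⁻¹ • x)) hR.le
  have e : R * (-(49 / 50) * σ⁻¹) = -(49 / 50 * (R / σ)) := by
    field_simp
  linarith

theorem levG_deep (h0 : 0 < σ) (h1 : σ ≤ 1 / 5000) (hR : 0 < R) {x : V n}
    (h : √(HY.sq (wR n σ R x)) ≤ 2 / 25) :
    levG n σ R kap Gs x ≤ lam0 R kap Gs - 9 / 10 * (R / σ) := by
  rw [levG_eq]
  have h2 := mul_le_mul_of_nonneg_left (gg_deep h0 h1 h) hR.le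
  have e : R * (-(9 / 10) * σ⁻¹) = -(9 / 10 * (R / σ)) := by
    field_simp
  linarith

/-- Quadratic growth. -/
theorem levG_growth (h0 : 0 < σ) (h1 : σ ≤ 1 / 5000) (hR : 0 < R) (x : V n) :
    lam0 R kap Gs + R / (2 * σ) * (HY.sq (wR n σ R x) - 1) - 49 / 50 * (R / σ) ≤
      levG n σ R kap Gs x := by
  rcases le_total (HY.sq (wR n σ R x)) 1 with h | h
  · have h2 := levG_bot (kap := kap) (Gs := Gs) h0 h1 hR x
    have h3 : R / (2 * σ) * (HY.sq (wR n σ R x) - 1) ≤ 0 :=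
      mul_nonpos_of_nonneg_of_nonpos (by positivity) (by linarith)
    linarith
  · have h2 : th1 σ ≤ HY.sq (wv n σ (R⁻¹ • x)) := by
      have := th1_lt h0 h1
      unfold wR at h
      linarith
    rw [levG_eq, gg_lit h0 h1 h2]
    have e : R * ((HY.sq (wv n σ (R⁻¹ • x)) - 1) / (2 * σ)) =
        R / (2 * σ) * (HY.sq (wR n σ R x) - 1) := by
      unfold wR
      field_simp
    rw [e]
    have h5 : 0 ≤ 49 / 50 * (R / σ) := by positivity
    linarith

/-- The literal value where the level is at least `lam0 - 229/100 R`. -/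
theorem levG_lit (h0 : 0 < σ) (h1 : σ ≤ 1 / 5000) {x : V n}
    (h : th1 σ ≤ HY.sq (wR n σ R x)) :
    levG n σ R kap Gs x = lam0 R kap Gs + R / (2 * σ) * (HY.sq (wR n σ R x) - 1) := by
  rw [levG_eq, gg_lit h0 h1 h]
  unfold wR
  field_simp

/-- A level above `lam0 + 21/20 R` is reached only for `|x| > 2 R`. -/
theorem en_gt_of_levG (hn : 1 ≤ n) (h0 : 0 < σ) (h1 : σ ≤ 1 / 5000) (hR : 0 < R) {x : V n}
    (h : lam0 R kap Gs + 21 / 20 * R ≤ levG n σ R kap Gs x) : 2 * R < √(HY.sq x) := by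
  have h2 : 21 / 20 ≤ gg n σ (R⁻¹ • x) := by
    rw [levG_eq] at h
    by_contra hc
    have := mul_lt_mul_of_pos_left (not_le.1 hc) hR
    linarith
  have h3 := en_gt_of_gg hn h0 h1 h2
  rw [en_smul, abs_of_pos (inv_pos.2 hR), lt_inv_mul_iff₀ hR] at h3
  linarith

theorem levG_lt_iff (h0 : 0 < σ) (h1 : σ ≤ 1 / 5000) (hR : 0 < R) (x y : V n) :
    levG n σ R kap Gs x < levG n σ R kap Gs y ↔
      HY.sq (wR n σ R x) < HY.sq (wR n σ R y) := by
  rw [levG_eq, levG_eq, add_lt_add_iff_left, mul_lt_mul_iff_right₀ hR]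
  exact gg_lt_iff h0 h1 _ _

theorem levG_le_iff (h0 : 0 < σ) (h1 : σ ≤ 1 / 5000) (hR : 0 < R) (x y : V n) :
    levG n σ R kap Gs x ≤ levG n σ R kap Gs y ↔
      HY.sq (wR n σ R x) ≤ HY.sq (wR n σ R y) := by
  rw [← not_lt, ← not_lt, levG_lt_iff h0 h1 hR]

/-! ### Lengths -/

lemma wR_sub (x y : V n) : wR n σ R x - wR n σ R y = (σ / R) • (x - y) := by
  unfold wR
  rw [wv_sub]
  ext i
  simp only [Pi.smul_apply, Pi.sub_apply, smul_eq_mul]
  field_simp

lemma en_wR_le (h0 : 0 < σ) (hR : 0 < R) (x y : V n) :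
    √(HY.sq (wR n σ R x)) ≤ √(HY.sq (wR n σ R y)) + σ / R * √(HY.sq (x - y)) := by
  have h : wR n σ R x = wR n σ R y + (σ / R) • (x - y) := by
    rw [← wR_sub]; abel
  rw [h]
  refine (en_add _ _).trans ?_
  rw [en_smul, abs_of_pos (by positivity)]

lemma en_sub_le_wR (h0 : 0 < σ) (hR : 0 < R) (x y : V n) :
    √(HY.sq (x - y)) ≤ R / σ * (√(HY.sq (wR n σ R x)) + √(HY.sq (wR n σ R y))) := by
  have h := en_sub (wR n σ R x) (wR n σ R y)
  rw [wR_sub, en_smul, abs_of_pos (by positivity)] at h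
  have h2 : 0 < σ / R := by positivity
  calc √(HY.sq (x - y)) = R / σ * (σ / R * √(HY.sq (x - y))) := by field_simp
    _ ≤ _ := mul_le_mul_of_nonneg_left h (by positivity)

/-- **Depth.** If `x` is deep and the level of `y` is at most `lam0 + 31/10 R`, then
`l(x) + l(y) + (81/100) |x - y| ≤ 2 lam0 - R / (50 σ)`. -/
theorem depth (h0 : 0 < σ) (h1 : σ ≤ 1 / 5000) (hR : 0 < R) {x y : V n}
    (hx : √(HY.sq (wR n σ R x)) ≤ 2 / 25)
    (hy : levG n σ R kap Gs y ≤ lam0 R kap Gs + 31 / 10 * R) :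
    levG n σ R kap Gs x + levG n σ R kap Gs y + 81 / 100 * √(HY.sq (x - y)) ≤
      2 * lam0 R kap Gs - 1 / 50 * (R / σ) := by
  have h2 := levG_deep (kap := kap) (Gs := Gs) h0 h1 hR hx
  have h3 := en_sub_le_wR (n := n) h0 hR x y
  have ht : √(HY.sq (wR n σ R y)) ≤ 1 + 31 / 10 * σ := by
    by_contra hc
    have hc' : 1 + 31 / 10 * σ < √(HY.sq (wR n σ R y)) := not_le.1 hc
    have h4 : (1 + 31 / 10 * σ) ^ 2 < HY.sq (wR n σ R y) := by
      rw [← Real.sq_sqrt (sq0 (wR n σ R y))]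
      exact pow_lt_pow_left₀ hc' (by linarith) (by norm_num)
    have h5 : th1 σ ≤ HY.sq (wR n σ R y) := by
      have := th1_lt h0 h1
      nlinarith
    rw [levG_lit h0 h1 h5] at hy
    have h6 : R / (2 * σ) * (HY.sq (wR n σ R y) - 1) ≤ 31 / 10 * R := by linarith
    have h7 : R / (2 * σ) * (2 * (31 / 10) * σ) = 31 / 10 * R := by field_simp
    rw [← h7] at h6
    have h8 : HY.sq (wR n σ R y) - 1 ≤ 2 * (31 / 10) * σ :=
      le_of_mul_le_mul_left h6 (by positivity)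
    nlinarith
  have h9 : √(HY.sq (x - y)) ≤ R / σ * (27 / 25 + 31 / 10 * σ) :=
    h3.trans (mul_le_mul_of_nonneg_left (by linarith) (by positivity))
  have h10 : R / σ * (27 / 25 + 31 / 10 * σ) = 27 / 25 * (R / σ) + 31 / 10 * R := by
    field_simp
  rw [h10] at h9
  have h11 : 5000 * R ≤ R / σ := by
    rw [le_div_iff₀ h0]
    nlinarith
  linarith

/-- `|w| ≥ 2/25` for both points of a pair which is not deep. -/
theorem not_deep (h0 : 0 < σ) (h1 : σ ≤ 1 / 5000) (hR : 0 < R) {x y : V n}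
    (hy : levG n σ R kap Gs y ≤ lam0 R kap Gs + 31 / 10 * R)
    (h : 2 * lam0 R kap Gs - 1 / 50 * (R / σ) <
      levG n σ R kap Gs x + levG n σ R kap Gs y + 81 / 100 * √(HY.sq (x - y))) :
    2 / 25 < √(HY.sq (wR n σ R x)) := by
  by_contra hc
  exact absurd (depth (kap := kap) (Gs := Gs) h0 h1 hR (not_lt.1 hc) hy) (not_le.2 h)

/-- The lower bound of a combination `N g + G (g + v)` with `|g| ≥ 24/25`, `|v| ≤ 81/100`. -/
theorem comb_ge {g v : V n} {N G : ℝ} (hN : 0 ≤ N) (hG : 0 ≤ G) (hg : 24 / 25 ≤ √(HY.sq g))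
    (hv : √(HY.sq v) ≤ 81 / 100) :
    24 / 25 * N + 3 / 20 * G ≤ √(HY.sq (N • g + G • (g + v))) := by
  have h1 : (N + G) • g = (N • g + G • (g + v)) - G • v := by
    rw [add_smul, smul_add]; abel
  have h2 := en_sub (N • g + G • (g + v)) (G • v)
  rw [← h1, en_smul, en_smul, abs_of_nonneg (add_nonneg hN hG), abs_of_nonneg hG] at h2
  nlinarith

end Vale.Agent.P088.R2.H475
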