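import Vale.Agent.P088.R2.H475.INF.LevR

/-!
# P088, zone INF: bounds of the derivatives of the global level

For `k ≥ 2`: `|D^k levG| ≤ C R (R⁻¹)^k` on all of `V n`, with `C` depending on `n`, `σ`, `k` only;
`|D levG| ≤ C (1 + |x| / R)`.
-/

open Set Filter MeasureTheory
open scoped ContDiff Topology Matrix

noncomputable section

namespace Vale.Agent.P088.R2.H475

open Vale.Agent.P088.LR Vale.Agent.P088.HY Vale.Agent.P088.HY.T3 Vale.Agent.P088.HY.T4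
open Vale.Agent.P088.R2.H31.EP

variable {n : ℕ} {σ R kap Gs : ℝ}

lemma natle (m : ℕ) : (m : ℕ∞ω) ≤ ∞ := by exact_mod_cast le_top

/-! ### The difference from the official level -/

/-- `gg - gy`. -/
def dg (n : ℕ) (σ : ℝ) (y : V n) : ℝ := gg n σ y - gy n σ y

lemma gy_smooth (σ : ℝ) : ContDiff ℝ ∞ (gy n σ) := by
  unfold gy HY.sq
  simp only [Pi.sub_apply]
  fun_prop

lemma dg_smooth (h0 : 0 < σ) (h1 : σ ≤ 1 / 5000) : ContDiff ℝ ∞ (dg n σ) :=
  (gg_smooth h0 h1).sub (gy_smooth σ)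

lemma dg_support (hn : 1 ≤ n) (h0 : 0 < σ) (h1 : σ ≤ 1 / 5000) :
    HasCompactSupport (dg n σ) := by
  have hc : IsClosed {y : V n | HY.sq (wv n σ y) ≤ 1} :=
    isClosed_le (contDiff_sqw (n := n) σ).continuous continuous_const
  refine HasCompactSupport.of_support_subset_isCompact (K := {y : V n | HY.sq (wv n σ y) ≤ 1})
    ?_ ?_
  · refine Metric.isCompact_of_isClosed_isBounded hc ?_
    rw [isBounded_iff_forall_norm_le]
    refine ⟨1 + 2 / σ, fun y hy => ?_⟩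
    have hy' : HY.sq (wv n σ y) ≤ 1 := hy
    rw [pi_norm_le_iff_of_nonneg (by positivity)]
    intro i
    have h2 : wv n σ y i ^ 2 ≤ HY.sq (wv n σ y) :=
      Finset.single_le_sum (f := fun j => wv n σ y j ^ 2) (fun j _ => sq_nonneg _)
        (Finset.mem_univ i)
    have h3 : |wv n σ y i| ≤ 1 := by
      rw [← sq_le_one_iff_abs_le_one]
      exact h2.trans hy'
    have he : 0 ≤ e0 n i ∧ e0 n i ≤ 1 := by
      unfold e0; split_ifs <;> norm_num
    have h4 : σ * (y i - e0 n i) = wv n σ y i - e0 n i := by unfold wv; ring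
    have h5 := abs_le.1 h3
    have h6 : |σ * (y i - e0 n i)| ≤ 2 := by
      rw [h4, abs_le]
      constructor <;> linarith
    rw [abs_mul, abs_of_pos h0] at h6
    have h7 : |y i - e0 n i| ≤ 2 / σ := by
      rw [le_div_iff₀ h0]
      linarith
    rw [Real.norm_eq_abs]
    have h8 := abs_le.1 h7
    rw [abs_le]
    have h9 : 0 < 2 / σ := by positivity
    constructor <;> linarith
  · intro y hy
    by_contra hc2
    have h2 : 1 < HY.sq (wv n σ y) := not_le.1 hc2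
    refine hy ?_
    unfold dg
    rw [gg_eq_gy hn h0 h1 ((th1_lt h0 h1).le.trans h2.le), sub_self]

lemma dg_bound (hn : 1 ≤ n) (h0 : 0 < σ) (h1 : σ ≤ 1 / 5000) (k : ℕ) :
    ∃ C, ∀ y : V n, ‖iteratedFDeriv ℝ k (dg n σ) y‖ ≤ C := by
  have h2 : Continuous (iteratedFDeriv ℝ k (dg n σ)) :=
    (dg_smooth h0 h1).continuous_iteratedFDeriv (by exact_mod_cast le_top)
  exact h2.bounded_above_of_compact_support ((dg_support hn h0 h1).iteratedFDeriv k)

/-! ### The official level -/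

/-- The second derivative of `gy`. -/
def Lg (n : ℕ) (σ : ℝ) : V n →L[ℝ] (V n →L[ℝ] ℝ) :=
  ∑ i : Fin n, σ • (ContinuousLinearMap.proj i : V n →L[ℝ] ℝ).smulRight
    (ContinuousLinearMap.proj i : V n →L[ℝ] ℝ)

lemma fd_gy (hn : 1 ≤ n) (h0 : σ ≠ 0) (y : V n) : HasFDerivAt (gy n σ)
    (∑ i, (wv n σ y i) • (ContinuousLinearMap.proj i : V n →L[ℝ] ℝ)) y := by
  have e : gy n σ = fun y => (2 * σ)⁻¹ * (HY.sq (wv n σ y) - 1) := by
    funext y
    rw [gy_wv hn h0 y]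
    field_simp
  rw [e]
  have h2 := ((fd_sqw (n := n) σ y).sub_const 1).const_mul (2 * σ)⁻¹
  refine h2.congr_fderiv ?_
  rw [Finset.smul_sum]
  refine Finset.sum_congr rfl fun i _ => ?_
  rw [smul_smul]
  congr 1
  field_simp

lemma fderiv_gy (hn : 1 ≤ n) (h0 : σ ≠ 0) : fderiv ℝ (gy n σ) = fun y =>
    Lg n σ y + ∑ i, ((1 - σ) * e0 n i) • (ContinuousLinearMap.proj i : V n →L[ℝ] ℝ) := by
  funext y
  rw [(fd_gy hn h0 y).fderiv]
  unfold Lg
  simp only [sum_apply, smul_apply, ContinuousLinearMap.smulRight_apply,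
    ContinuousLinearMap.proj_apply]
  rw [← Finset.sum_add_distrib]
  refine Finset.sum_congr rfl fun i _ => ?_
  rw [smul_smul, ← add_smul]
  congr 1
  unfold wv
  ring

lemma gy_bound (hn : 1 ≤ n) (h0 : σ ≠ 0) (k : ℕ) :
    ∃ C, ∀ y : V n, ‖iteratedFDeriv ℝ (k + 2) (gy n σ) y‖ ≤ C := by
  refine ⟨‖Lg n σ‖, fun y => ?_⟩
  rw [← norm_iteratedFDeriv_fderiv, ← norm_iteratedFDeriv_fderiv, fderiv_gy hn h0]
  have e : fderiv ℝ (fun y : V n => Lg n σ y +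
      ∑ i, ((1 - σ) * e0 n i) • (ContinuousLinearMap.proj i : V n →L[ℝ] ℝ)) =
      fun _ => Lg n σ := by
    funext y
    rw [fderiv_add_const]
    exact (Lg n σ).fderiv
  rw [e]
  rcases k with _ | k
  · simp
  · rw [iteratedFDeriv_const_of_ne (Nat.succ_ne_zero k), Pi.zero_apply, norm_zero]
    exact norm_nonneg (Lg n σ)

/-- **The derivatives of order `≥ 2` of the global level are bounded.** -/
theorem gg_bound (hn : 1 ≤ n) (h0 : 0 < σ) (h1 : σ ≤ 1 / 5000) (k : ℕ) :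
    ∃ C, ∀ y : V n, ‖iteratedFDeriv ℝ (k + 2) (gg n σ) y‖ ≤ C := by
  obtain ⟨C₁, hC₁⟩ := dg_bound (n := n) hn h0 h1 (k + 2)
  obtain ⟨C₂, hC₂⟩ := gy_bound (n := n) hn h0.ne' k
  refine ⟨C₁ + C₂, fun y => ?_⟩
  have e : gg n σ = dg n σ + gy n σ := by
    funext y; simp [dg]
  have hk := natle (k + 2)
  rw [e, iteratedFDeriv_add_apply ((dg_smooth h0 h1).contDiffAt.of_le hk)
    ((gy_smooth σ).contDiffAt.of_le hk)]
  exact (norm_add_le _ _).trans (add_le_add (hC₁ y) (hC₂ y))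

theorem gg_bound1 (hn : 1 ≤ n) (h0 : 0 < σ) (h1 : σ ≤ 1 / 5000) :
    ∃ C, 0 < C ∧ ∀ y : V n, ‖fderiv ℝ (gg n σ) y‖ ≤ C * (1 + ‖y‖) := by
  obtain ⟨C₂, hC₂⟩ := gg_bound (n := n) hn h0 h1 0
  have hC2 : 0 ≤ C₂ := (norm_nonneg _).trans (hC₂ 0)
  refine ⟨‖fderiv ℝ (gg n σ) 0‖ + C₂ + 1, by positivity, fun y => ?_⟩
  have hd : Differentiable ℝ (fderiv ℝ (gg n σ)) :=
    ((gg_smooth (n := n) h0 h1).fderiv_right (m := ∞) (by simp)).differentiable (by simp)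
  have hb : ∀ x ∈ (univ : Set (V n)), ‖fderiv ℝ (fderiv ℝ (gg n σ)) x‖ ≤ C₂ := by
    intro x _
    have := hC₂ x
    rw [zero_add, ← norm_iteratedFDeriv_fderiv, ← norm_iteratedFDeriv_fderiv,
      norm_iteratedFDeriv_zero] at this
    exact this
  have h2 := (convex_univ : Convex ℝ (univ : Set (V n))).norm_image_sub_le_of_norm_fderiv_le
    (fun x _ => hd x) hb (mem_univ (0 : V n)) (mem_univ y)
  rw [sub_zero] at h2
  have h3 : ‖fderiv ℝ (gg n σ) y‖ ≤ ‖fderiv ℝ (gg n σ) 0‖ + C₂ * ‖y‖ := by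
    calc ‖fderiv ℝ (gg n σ) y‖ = ‖fderiv ℝ (gg n σ) 0 +
          (fderiv ℝ (gg n σ) y - fderiv ℝ (gg n σ) 0)‖ := by abel_nf
      _ ≤ _ := (norm_add_le _ _).trans (by linarith)
  have h4 := norm_nonneg (fderiv ℝ (gg n σ) 0)
  have h5 := norm_nonneg y
  nlinarith [mul_nonneg h4 h5]

/-! ### Rate units -/

/-- The derivatives of `f (c · x)`. -/
lemma it_scale_le {f : V n → ℝ} (hf : ContDiff ℝ ∞ f) {c : ℝ} (hc : 0 ≤ c) (k : ℕ) (x : V n) :
    ‖iteratedFDeriv ℝ k (fun x => f (c • x)) x‖ ≤ c ^ k * ‖iteratedFDeriv ℝ k f (c • x)‖ := by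
  have e : (fun x => f (c • x)) = f ∘ (c • ContinuousLinearMap.id ℝ (V n)) := by
    funext x; simp
  rw [e, ContinuousLinearMap.iteratedFDeriv_comp_right _ hf x (by exact_mod_cast le_top)]
  refine (ContinuousMultilinearMap.norm_compContinuousLinearMap_le _ _).trans ?_
  rw [Finset.prod_const, Finset.card_univ, Fintype.card_fin, mul_comm]
  have h2 : ‖c • ContinuousLinearMap.id ℝ (V n)‖ ≤ c := by
    rw [norm_smul, Real.norm_eq_abs, abs_of_nonneg hc]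
    exact mul_le_of_le_one_right hc ContinuousLinearMap.norm_id_le
  have h3 : (c • ContinuousLinearMap.id ℝ (V n)) x = c • x := by simp
  rw [h3]
  exact mul_le_mul_of_nonneg_right (pow_le_pow_left₀ (norm_nonneg _) h2 k) (norm_nonneg _)

lemma it_levG_le (h0 : 0 < σ) (h1 : σ ≤ 1 / 5000) (hR : 0 < R) (k : ℕ) (x : V n) :
    ‖iteratedFDeriv ℝ (k + 1) (levG n σ R kap Gs) x‖ ≤
      R * (R⁻¹ ^ (k + 1) * ‖iteratedFDeriv ℝ (k + 1) (gg n σ) (R⁻¹ • x)‖) := by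
  have hg : ContDiff ℝ ∞ fun x : V n => gg n σ (R⁻¹ • x) :=
    (gg_smooth h0 h1).comp (contDiff_const_smul R⁻¹)
  have e : levG n σ R kap Gs = (fun _ => lam0 R kap Gs) + R • fun x : V n => gg n σ (R⁻¹ • x) := by
    funext x
    rw [levG_eq]
    simp
  have hk := natle (k + 1)
  have hg2 : ContDiff ℝ ∞ (R • fun x : V n => gg n σ (R⁻¹ • x)) := hg.const_smul R
  have hc : ContDiff ℝ ∞ (fun _ : V n => lam0 R kap Gs) := contDiff_const
  rw [e, iteratedFDeriv_add_apply (hc.contDiffAt.of_le hk) (hg2.contDiffAt.of_le hk),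
    iteratedFDeriv_const_of_ne (Nat.succ_ne_zero k),
    iteratedFDeriv_const_smul_apply (hg.contDiffAt.of_le hk)]
  simp only [Pi.zero_apply, zero_add]
  rw [norm_smul, Real.norm_eq_abs, abs_of_pos hR]
  exact mul_le_mul_of_nonneg_left
    (it_scale_le (gg_smooth h0 h1) (inv_nonneg.2 hR.le) (k + 1) x) hR.le

/-- **The derivatives of order `k + 2` of `levG` are `O(R^{-(k+1)})`.** -/
theorem levG_bound (hn : 1 ≤ n) (h0 : 0 < σ) (h1 : σ ≤ 1 / 5000) (k : ℕ) :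
    ∃ C, 0 < C ∧ ∀ R kap Gs : ℝ, 0 < R → ∀ x : V n,
      ‖iteratedFDeriv ℝ (k + 2) (levG n σ R kap Gs) x‖ ≤ C * R⁻¹ ^ (k + 1) := by
  obtain ⟨C, hC⟩ := gg_bound (n := n) hn h0 h1 k
  have hC0 : 0 ≤ C := (norm_nonneg _).trans (hC 0)
  refine ⟨C + 1, by linarith, fun R kap Gs hR x => ?_⟩
  refine (it_levG_le (kap := kap) (Gs := Gs) h0 h1 hR (k + 1) x).trans ?_
  have hi : 0 < R⁻¹ := inv_pos.2 hR
  have e : R * R⁻¹ ^ (k + 1 + 1) = R⁻¹ ^ (k + 1) := by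
    rw [pow_succ' R⁻¹ (k + 1), ← mul_assoc, mul_inv_cancel₀ hR.ne', one_mul]
  rw [← mul_assoc, e, mul_comm]
  refine mul_le_mul_of_nonneg_right ?_ (pow_nonneg hi.le _)
  have := hC (R⁻¹ • x)
  have h2 : k + 1 + 1 = k + 2 := rfl
  rw [h2]
  linarith

/-- **The gradient of `levG` is `O(1 + |x| / R)`.** -/
theorem levG_bound1 (hn : 1 ≤ n) (h0 : 0 < σ) (h1 : σ ≤ 1 / 5000) :
    ∃ C, 0 < C ∧ ∀ R kap Gs : ℝ, 0 < R → ∀ x : V n,
      ‖fderiv ℝ (levG n σ R kap Gs) x‖ ≤ C * (1 + ‖x‖ / R) := by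
  obtain ⟨C, hC0, hC⟩ := gg_bound1 (n := n) hn h0 h1
  refine ⟨C, hC0, fun R kap Gs hR x => ?_⟩
  have h2 := it_levG_le (kap := kap) (Gs := Gs) h0 h1 hR 0 x
  rw [zero_add, ← norm_iteratedFDeriv_fderiv (n := 0), norm_iteratedFDeriv_zero,
    ← norm_iteratedFDeriv_fderiv (n := 0), norm_iteratedFDeriv_zero, pow_one, ← mul_assoc,
    mul_inv_cancel₀ hR.ne', one_mul] at h2
  refine h2.trans ((hC _).trans ?_)
  rw [norm_smul, norm_inv, Real.norm_eq_abs, abs_of_pos hR, inv_mul_eq_div]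

end Vale.Agent.P088.R2.H475
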